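import Vale.Agent.P217.Point.Exists.Height

/-!
# P217 module C2: existence of points on a prime with prescribed norms of the parameters, and the
`p`-degree of the field they generate
-/

noncomputable section

namespace Vale.Agent.P217

variable {p n : ℕ} [Fact p.Prime]

/-- The subfield generated by the image of `E0` has `p`-degree at most `c`. -/
def Point.PDegLE (P : Point p n) (c : ℕ) : Prop :=
  ∃ b : Fin (p ^ c) → P.K, (∀ i, b i ∈ Subfield.closure (Set.range P.x)) ∧
    ∀ y ∈ Subfield.closure (Set.range P.x), ∃ z : Fin (p ^ c) → P.K,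
      (∀ i, z i ∈ Subfield.closure (Set.range P.x)) ∧ y = ∑ i, z i ^ p * b i

section Coordinates

open MvPowerSeries PointExists

/-- The coordinates `u h, u j, ..., u (n - 1)`. -/
def coordsH {h j : ℕ} (h1 : 1 ≤ h) (hj : h < j) (hjn : j ≤ n) :
    Fin (n - j + 1) ↪ Fin (n - 1) where
  toFun i := if (i : ℕ) = 0 then ⟨h - 1, by omega⟩ else ⟨j - 2 + i, by omega⟩
  inj' a b hab := by
    have h2 := congrArg Fin.val hab
    dsimp only at h2
    apply Fin.ext
    split_ifs at h2 <;> simp only at h2 <;> omega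

/-- The coordinates `u j, ..., u (n - 1)`. -/
def coordsZero {j : ℕ} (hj : 1 ≤ j) (hjn : j ≤ n) : Fin (n - j) ↪ Fin (n - 1) where
  toFun i := ⟨j - 1 + i, by omega⟩
  inj' a b hab := by
    have h2 := congrArg Fin.val hab
    exact Fin.ext (by simp only at h2; omega)

/-- `r` gives the norms of `u h` and of `u i`, `j ≤ i < n`. -/
theorem exists_point {I : Ideal (E0 p n)} [I.IsPrime] {h j : ℕ} (h1 : 1 ≤ h) (hj : h < j)
    (hjn : j ≤ n) (hI : heightIdeal p n h ≤ I) (hu : u p n h ∉ I)
    (hrad : (I ⊔ Ideal.span {u p n h}).radical = heightIdeal p n j) :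
    ∃ M : ℕ, 1 ≤ M ∧ ∀ r : ℕ → ℝ, (∀ i, 0 < r i ∧ r i < 1) →
      ∃ P : Point p n, RingHom.ker P.x = I ∧ ‖P.x (u p n h)‖ = r h ∧
        (∀ i, j ≤ i → i < n → ‖P.x (u p n i)‖ = r i) ∧
        (∀ l, h < l → l < j → ‖P.x (u p n l)‖ ^ M ≤ r h) ∧
        P.PDegLE (n - j + 1) := by
  classical
  obtain ⟨M, hM1, hM⟩ := exists_exponent hrad
  refine ⟨M, hM1, fun r hr => ?_⟩
  let e := coordsH (n := n) h1 hj hjn
  have e0 : ((e 0 : Fin (n - 1)) : ℕ) = h - 1 := by simp [e, coordsH]
  have ei : ∀ i : Fin (n - j + 1), (i : ℕ) ≠ 0 → ((e i : Fin (n - 1)) : ℕ) = j - 2 + i :=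
    fun i hi => by
      show ((if (i : ℕ) = 0 then _ else _ : Fin (n - 1)) : ℕ) = _
      rw [if_neg hi]
  have hoff : ∀ l, l ∉ Set.range e → (l : ℕ) + 1 < j := by
    intro l hl
    by_contra hlj
    refine hl ⟨⟨(l : ℕ) + 2 - j, by omega⟩, Fin.ext ?_⟩
    rw [ei _ (by simp only; omega)]
    simp only
    omega
  have huX : u p n h = X (e 0) := u_X (by omega)
  have hp : (p : E0 p n) ∈ I := hI (by
    rw [heightIdeal, if_neg (by omega)]
    exact Ideal.subset_span (Set.mem_insert _ _))
  -- reduction of the coefficients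
  let ψW : MvPowerSeries (Fin (n - j + 1)) (W p n) →+* E0 p n ⧸ I :=
    (Ideal.Quotient.mk I).comp (rename e).toRingHom
  have hker : RingHom.ker (red (p := p) (n := n) (σ := Fin (n - j + 1))) ≤ RingHom.ker ψW := by
    intro f hf
    obtain ⟨q, rfl⟩ := exists_eq_p_mul hf
    rw [RingHom.mem_ker]
    show Ideal.Quotient.mk I (rename e (C (p : W p n) * q)) = 0
    rw [map_mul, rename_C, map_natCast, Ideal.Quotient.eq_zero_iff_mem]
    exact I.mul_mem_right _ hp
  let ψ : MvPowerSeries (Fin (n - j + 1)) (Coef p n) →+* E0 p n ⧸ I :=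
    RingHom.liftOfSurjective red red_surjective ⟨ψW, hker⟩
  have hψ : ∀ f, ψ (red f) = Ideal.Quotient.mk I (rename e f) := fun f =>
    RingHom.liftOfRightInverse_comp_apply _ _ _ ⟨ψW, hker⟩ f
  have hdiv : ∀ (N : ℕ) (f : MvPowerSeries (Fin (n - j + 1)) (W p n)),
      rename e f ∈ I → (X 0) ^ N ∣ red f := by
    intro N
    induction N with
    | zero => simp
    | succ N ih =>
      intro f hf
      have h2 : red f ∈
          Ideal.span {(X 0 : MvPowerSeries (Fin (n - j + 1)) (Coef p n))} := by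
        rw [← restrictMap_rename e f]
        refine Ideal.mem_comap.1 (heightIdeal_le_comap e hjn
          (J := Ideal.span {(X 0 : MvPowerSeries (Fin (n - j + 1)) (Coef p n))})
          (fun i hi => ?_) (le_heightIdeal hrad hf))
        by_cases h0 : (i : ℕ) = 0
        · rw [show i = 0 from Fin.ext h0]
          exact Ideal.mem_span_singleton_self _
        · rw [ei i h0] at hi
          omega
      obtain ⟨q, hq⟩ := Ideal.mem_span_singleton.1 h2
      obtain ⟨q', rfl⟩ := red_surjective q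
      have h3 : rename e (f - X 0 * q') ∈ I := by
        rw [← Ideal.Quotient.eq_zero_iff_mem, ← hψ, map_sub, map_mul, show red (X 0) =
          (X 0 : MvPowerSeries (Fin (n - j + 1)) (Coef p n)) from map_X _ _, ← hq, sub_self,
          map_zero]
      rw [map_sub, map_mul, rename_X, ← huX] at h3
      have h4 : u p n h * rename e q' ∈ I := by
        simpa using I.sub_mem hf h3
      rw [hq, pow_succ']
      exact mul_dvd_mul_left _ (ih q' (((inferInstance : I.IsPrime).mem_or_mem h4).resolve_left hu))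
  have hψinj : Function.Injective ψ := by
    rw [injective_iff_map_eq_zero]
    intro a ha
    obtain ⟨f, rfl⟩ := red_surjective a
    rw [hψ, Ideal.Quotient.eq_zero_iff_mem] at ha
    ext d
    rw [map_zero]
    exact X_pow_dvd_iff.1 (hdiv (d 0 + 1) f ha) d (Nat.lt_succ_self _)
  -- decomposition
  have htop := sup_ne_top hjn hrad
  have hdec : ∀ f, ∃ c : Box e M → MvPowerSeries (Fin (n - j + 1)) (Coef p n),
      Ideal.Quotient.mk I f =
        ∑ b, ψ (c b) * Ideal.Quotient.mk I (monomial (boxExp e M b) 1) := by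
    intro f
    obtain ⟨g, hg⟩ := exists_decomp e M I (X 0) (hasSeries_X 0)
      (fun l hl => by rw [rename_X, ← huX]; exact hM l (hoff l hl))
      (fun f hf => sep_of_prime I (u p n h) htop fun N => by
        simpa only [rename_X, ← huX] using hf N) f
    refine ⟨fun b => red (g b), ?_⟩
    rw [Ideal.Quotient.eq.2 hg, map_sum]
    simp only [map_mul, hψ]
  -- the absolute value
  let r' : Fin (n - j + 1) → ℝ := fun i => if (i : ℕ) = 0 then r h else r (j - 1 + i)
  have hr' : ∀ i, 0 < r' i ∧ r' i < 1 := fun i => by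
    simp only [r']
    split_ifs <;> exact hr _
  let v₀ : AbsoluteValue (Coef p n) ℝ := AbsoluteValue.trivial
  have hv₀ : ∀ a : Coef p n, v₀ a ≤ 1 := fun a => by
    rcases eq_or_ne a 0 with rfl | ha
    · simp
    · rw [AbsoluteValue.trivial_apply ha]
  obtain ⟨g, hg, hg1, hgX, -⟩ := exists_gauss_abs v₀ (fun a b => by
      rcases eq_or_ne a 0 with rfl | ha
      · simp
      · exact (hv₀ _).trans (le_max_of_le_left (AbsoluteValue.trivial_apply ha).ge))
    hv₀ r' (fun i => (hr' i).1) fun i => (hr' i).2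
  have hg0 : g (X 0) = r h := by rw [hgX]; rfl
  obtain ⟨P, φ, hkerx, hφ, hφn, hxφ, hxdec⟩ := exists_point_of ψ hψinj
    (fun b => monomial (boxExp e M b) 1) hdec g hg hg1 ⟨X 0, by rw [hg0]; exact hr h⟩ (by
      intro y hy
      rcases hy with rfl | ⟨l, rfl⟩
      · refine ⟨1, 0, 0, ?_, by rw [map_zero]; exact one_pos⟩
        rw [pow_one, Ideal.Quotient.eq_zero_iff_mem.2 hp, map_zero, zero_mul]
      · by_cases hl : l ∈ Set.range e
        · obtain ⟨i, rfl⟩ := hl
          refine ⟨1, 1, red (X i), ?_, by rw [show red (X i) = X i from map_X _ _, hgX]; exact (hr' i).2⟩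
          rw [hψ, rename_X, pow_one, map_one, one_mul]
        · obtain ⟨a, ha, b, hb, hab⟩ := Submodule.mem_sup.1 (hM l (hoff l hl))
          obtain ⟨b', rfl⟩ := Ideal.mem_span_singleton'.1 hb
          refine ⟨M, b', red (X 0), ?_, by
            show g (MvPowerSeries.map _ (X 0)) < 1
            rw [map_X, hg0]; exact (hr h).2⟩
          rw [hψ, rename_X, ← huX, ← hab, map_add, Ideal.Quotient.eq_zero_iff_mem.2 ha, zero_add,
            map_mul])
  have hxe : ∀ i, ‖P.x (X (e i))‖ = r' i := fun i => by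
    rw [hxφ (red (X i)) (X (e i)) (by rw [hψ, rename_X]), hφn,
      show red (X i) = X i from map_X _ _, hgX]
  have hxh : ‖P.x (u p n h)‖ = r h := by
    rw [huX, hxe]; rfl
  refine ⟨P, hkerx, hxh, fun i hi hin => ?_, fun l hhl hlj => ?_, ?_⟩
  · have h2 := ei ⟨i + 1 - j, by omega⟩ (by simp only; omega)
    simp only at h2
    rw [u_X (l := e ⟨i + 1 - j, by omega⟩) (by omega), hxe]
    simp only [r']
    rw [if_neg (by omega)]
    congr 1
    omega
  · have h2 := hM ⟨l - 1, by omega⟩ (by simp only; omega)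
    rw [← u_X (l := (⟨l - 1, by omega⟩ : Fin (n - 1))) (show l - 1 + 1 = l by omega)] at h2
    obtain ⟨a, ha, b, hb, hab⟩ := Submodule.mem_sup.1 h2
    obtain ⟨b', rfl⟩ := Ideal.mem_span_singleton'.1 hb
    rw [← hkerx, RingHom.mem_ker] at ha
    rw [← norm_pow, ← map_pow, ← hab, map_add, ha, zero_add, map_mul, norm_mul, hxh]
    exact mul_le_of_le_one_left (hr h).1.le (P.norm_le _)
  · let E := (Fintype.equivFinOfCardEq (α := Fin (n - j + 1) → Fin p) (n := p ^ (n - j + 1))
      (by simp)).symm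
    refine pdegLE_of P φ hφ (fun a => ?_) _ hxdec
      (fun i => monomial (Finsupp.equivFunOnFinite.symm fun s => (E i s : ℕ)) 1) fun a => ?_
    · obtain ⟨f, rfl⟩ := red_surjective a
      exact ⟨rename e f, hxφ _ _ (hψ f)⟩
    · obtain ⟨z, hz⟩ := exists_pow_decomp p a
      refine ⟨fun i => z (E i), ?_⟩
      conv_lhs => rw [hz, ← E.sum_comp]
      exact Finset.sum_congr rfl fun i _ => mul_comm _ _

theorem exists_point_zero {I : Ideal (E0 p n)} [I.IsPrime] {j : ℕ} (hj : 1 ≤ j) (hjn : j ≤ n)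
    (hI : (p : E0 p n) ∉ I)
    (hrad : (I ⊔ Ideal.span {(p : E0 p n)}).radical = heightIdeal p n j) :
    ∃ P : Point p n, RingHom.ker P.x = I := by
  classical
  obtain ⟨M, hM1, hM⟩ := exists_exponent hrad
  let e := coordsZero (n := n) hj hjn
  have hoff : ∀ l, l ∉ Set.range e → (l : ℕ) + 1 < j := by
    intro l hl
    by_contra hlj
    refine hl ⟨⟨(l : ℕ) + 1 - j, by omega⟩, Fin.ext ?_⟩
    show j - 1 + ((l : ℕ) + 1 - j) = (l : ℕ)
    omega
  have hep : rename e (C (p : W p n)) = (p : E0 p n) := by rw [rename_C, map_natCast]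
  let ψ : MvPowerSeries (Fin (n - j)) (W p n) →+* E0 p n ⧸ I :=
    (Ideal.Quotient.mk I).comp (rename e).toRingHom
  have hdiv : ∀ (N : ℕ) (f : MvPowerSeries (Fin (n - j)) (W p n)),
      rename e f ∈ I → C (p : W p n) ^ N ∣ f := by
    intro N
    induction N with
    | zero => simp
    | succ N ih =>
      intro f hf
      have h2 : red f ∈ (⊥ : Ideal (MvPowerSeries (Fin (n - j)) (Coef p n))) := by
        rw [← restrictMap_rename e f]
        refine Ideal.mem_comap.1 (heightIdeal_le_comap e hjn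
          (J := (⊥ : Ideal (MvPowerSeries (Fin (n - j)) (Coef p n))))
          (fun i hi => ?_) (le_heightIdeal hrad hf))
        change j - 1 + (i : ℕ) + 1 < j at hi
        omega
      obtain ⟨q, rfl⟩ := exists_eq_p_mul (Ideal.mem_bot.1 h2)
      rw [map_mul, hep] at hf
      rw [pow_succ']
      exact mul_dvd_mul_left _ (ih q (((inferInstance : I.IsPrime).mem_or_mem hf).resolve_left hI))
  have hψinj : Function.Injective ψ := by
    rw [injective_iff_map_eq_zero]
    intro f hf
    have hf' : rename e f ∈ I := Ideal.Quotient.eq_zero_iff_mem.1 hf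
    refine MvPowerSeries.ext fun d => ?_
    rw [map_zero]
    refine IsHausdorff.haus (I := Ideal.span {(p : W p n)}) inferInstance _ fun N => ?_
    rw [SModEq.sub_mem, sub_zero, smul_eq_mul, Ideal.mul_top, Ideal.span_singleton_pow,
      Ideal.mem_span_singleton]
    obtain ⟨q, rfl⟩ := hdiv N f hf'
    rw [← map_pow, coeff_C_mul]
    exact dvd_mul_right _ _
  have htop := sup_ne_top hjn hrad
  have hdec : ∀ f, ∃ c : Box e M → MvPowerSeries (Fin (n - j)) (W p n),
      Ideal.Quotient.mk I f =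
        ∑ b, ψ (c b) * Ideal.Quotient.mk I (monomial (boxExp e M b) 1) := by
    intro f
    obtain ⟨g, hg⟩ := exists_decomp e M I (C (p : W p n)) (hasSeries_C _)
      (fun l hl => by rw [hep]; exact hM l (hoff l hl))
      (fun f hf => sep_of_prime I _ htop fun N => by simpa only [hep] using hf N) f
    refine ⟨g, ?_⟩
    rw [Ideal.Quotient.eq.2 hg, map_sum]
    simp only [map_mul]
    rfl
  obtain ⟨v, hv, hv1, hvp⟩ := exists_abs_witt (p := p) (n := n)
  obtain ⟨g, hg, hg1, hgX, hgC⟩ :=
    exists_gauss_abs (σ := Fin (n - j)) v hv hv1 (fun _ => 1 / 2) (fun _ => by norm_num)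
      fun _ => by norm_num
  have hgp : g (C (p : W p n)) < 1 := by rwa [hgC]
  obtain ⟨P, φ, hkerx, -⟩ := exists_point_of ψ hψinj
    (fun b => monomial (boxExp e M b) 1) hdec g hg hg1
    ⟨C (p : W p n), by
      rw [hgC]
      exact ⟨v.pos (WittVector.p_nonzero p _), hvp⟩⟩ (by
      intro y hy
      rcases hy with rfl | ⟨l, rfl⟩
      · refine ⟨1, 1, C (p : W p n), ?_, hgp⟩
        show _ = _ * Ideal.Quotient.mk I (rename e _)
        rw [hep, pow_one, map_one, one_mul]
      · by_cases hl : l ∈ Set.range e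
        · obtain ⟨i, rfl⟩ := hl
          refine ⟨1, 1, X i, ?_, by rw [hgX]; norm_num⟩
          show _ = _ * Ideal.Quotient.mk I (rename e _)
          rw [rename_X, pow_one, map_one, one_mul]
        · obtain ⟨a, ha, b, hb, hab⟩ := Submodule.mem_sup.1 (hM l (hoff l hl))
          obtain ⟨b', rfl⟩ := Ideal.mem_span_singleton'.1 hb
          refine ⟨M, b', C (p : W p n), ?_, hgp⟩
          show _ = _ * Ideal.Quotient.mk I (rename e _)
          rw [hep, ← hab, map_add, Ideal.Quotient.eq_zero_iff_mem.2 ha, zero_add, map_mul])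
  exact ⟨P, hkerx⟩

end Coordinates

end Vale.Agent.P217
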