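import Vale.Agent.P217.Base

/-!
# P217 module C1: points of the Lubin-Tate space in a non-archimedean field, evaluation
-/

noncomputable section

open Filter Topology Finset

namespace Vale.Agent.P217

variable (p n : ℕ) [Fact p.Prime]

/-- A point in an algebraically closed non-archimedean field: a contracting ring map. The field
need not be complete; every finite set lies in a complete subfield containing the image. -/
structure Point where
  /-- the field -/
  K : Type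
  [normed : NormedField K]
  [ultra : IsUltrametricDist K]
  [algClosed : IsAlgClosed K]
  /-- the point -/
  x : E0 p n →+* K
  complete_gen : ∀ s : Finset K, ∃ L : Subfield K, IsComplete (L : Set K) ∧
    (∀ a, x a ∈ L) ∧ ∀ y ∈ s, y ∈ L
  norm_le : ∀ a, ‖x a‖ ≤ 1
  contract : ∃ r : ℝ, r < 1 ∧ ∀ a ∈ IsLocalRing.maximalIdeal (E0 p n), ‖x a‖ ≤ r

attribute [instance] Point.normed Point.ultra Point.algClosed

variable {p n}

namespace Point

variable (P : Point p n) {s t : Type} [Fintype s] [Fintype t]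

/-- The moved point `x ∘ σ`. -/
def comp (σ : E0 p n →ₐ[W p n] E0 p n)
    (hσ : ∀ a ∈ IsLocalRing.maximalIdeal (E0 p n),
      σ a ∈ IsLocalRing.maximalIdeal (E0 p n)) : Point p n where
  K := P.K
  x := P.x.comp σ.toRingHom
  complete_gen fs := by
    obtain ⟨L, h1, h2, h3⟩ := P.complete_gen fs
    exact ⟨L, h1, fun a => h2 _, h3⟩
  norm_le a := P.norm_le _
  contract := by
    obtain ⟨r, hr, h⟩ := P.contract
    exact ⟨r, hr, fun a ha => h _ (hσ a ha)⟩

/-- Evaluation of a power series over `E0` at a tuple of the open unit disc. -/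
def ev (f : MvPowerSeries s (E0 p n)) (y : s → P.K) : P.K :=
  ∑' d : s →₀ ℕ, P.x (MvPowerSeries.coeff d f) * ∏ i, y i ^ d i

/-- Evaluation of a one variable series. -/
def ev₁ (f : PowerSeries (E0 p n)) (y : P.K) : P.K := P.ev f fun _ => y

/-- The addition of `F` on the open unit disc. -/
def add (F : FormalGroup (E0 p n)) (y z : P.K) : P.K := P.ev F.toPowerSeries ![y, z]

variable {y z : s → P.K}

/-! Auxiliary facts on the summands. -/

theorem exists_radius (hy : ∀ i, ‖y i‖ < 1) :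
    ∃ ρ : ℝ, 0 ≤ ρ ∧ ρ < 1 ∧ ∀ i, ‖y i‖ ≤ ρ := by
  refine ⟨((univ.sup fun i => ‖y i‖₊ : NNReal) : ℝ), NNReal.coe_nonneg _, ?_, fun i => ?_⟩
  · have h : (univ.sup fun i => ‖y i‖₊) < (1 : NNReal) :=
      (Finset.sup_lt_iff (by simp)).2 fun i _ => by exact_mod_cast hy i
    exact_mod_cast h
  · exact_mod_cast le_sup (f := fun i => ‖y i‖₊) (mem_univ i)

theorem norm_prod_pow_le {ρ : ℝ} (hρ : ∀ i, ‖y i‖ ≤ ρ) (d : s →₀ ℕ) :
    ‖∏ i, y i ^ d i‖ ≤ ρ ^ d.degree := by
  rw [norm_prod, Finsupp.degree_eq_sum, ← prod_pow_eq_pow_sum]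
  refine prod_le_prod (fun i _ => norm_nonneg _) fun i _ => ?_
  rw [norm_pow]
  exact pow_le_pow_left₀ (norm_nonneg _) (hρ i) _

theorem norm_term_le {ρ : ℝ} (hρ : ∀ i, ‖y i‖ ≤ ρ) (f : MvPowerSeries s (E0 p n))
    (d : s →₀ ℕ) : ‖P.x (MvPowerSeries.coeff d f) * ∏ i, y i ^ d i‖ ≤ ρ ^ d.degree := by
  rw [norm_mul]
  exact (mul_le_of_le_one_left (norm_nonneg _) (P.norm_le _)).trans (P.norm_prod_pow_le hρ d)

theorem tendsto_term (f : MvPowerSeries s (E0 p n)) (hy : ∀ i, ‖y i‖ < 1) :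
    Tendsto (fun d : s →₀ ℕ => P.x (MvPowerSeries.coeff d f) * ∏ i, y i ^ d i) cofinite (𝓝 0) := by
  obtain ⟨ρ, h0, h1, hρ⟩ := P.exists_radius hy
  have hdeg : Tendsto (fun d : s →₀ ℕ => d.degree) cofinite atTop :=
    tendsto_atTop.2 fun N => (Finsupp.finite_of_degree_lt (σ := s) N).subset
      fun d hd => not_le.1 (show ¬N ≤ d.degree from hd)
  exact squeeze_zero_norm (P.norm_term_le hρ f)
    ((tendsto_pow_atTop_nhds_zero_of_lt_one h0 h1).comp hdeg)

theorem hasSum_mem (L : Subfield P.K) (hL : IsComplete (L : Set P.K)) (hx : ∀ a, P.x a ∈ L)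
    (f : MvPowerSeries s (E0 p n)) (hy : ∀ i, ‖y i‖ < 1) (hyL : ∀ i, y i ∈ L) :
    ∃ v ∈ L, HasSum (fun d : s →₀ ℕ => P.x (MvPowerSeries.coeff d f) * ∏ i, y i ^ d i) v :=
  cauchySeq_tendsto_of_isComplete hL
    (fun _ => sum_mem fun _ _ => mul_mem (hx _) (prod_mem fun i _ => pow_mem (hyL i) _))
    (NonarchimedeanAddGroup.cauchySeq_sum_of_tendsto_cofinite_zero (P.tendsto_term f hy))

theorem summable_ev (f : MvPowerSeries s (E0 p n)) (hy : ∀ i, ‖y i‖ < 1) :
    Summable fun d : s →₀ ℕ => P.x (MvPowerSeries.coeff d f) * ∏ i, y i ^ d i := by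
  classical
  obtain ⟨L, hL, hx, hyL⟩ := P.complete_gen (univ.image y)
  obtain ⟨v, -, hv⟩ := P.hasSum_mem L hL hx f hy fun i =>
    hyL _ (mem_image_of_mem y (mem_univ i))
  exact hv.summable

theorem ev_add (f g : MvPowerSeries s (E0 p n)) (hy : ∀ i, ‖y i‖ < 1) :
    P.ev (f + g) y = P.ev f y + P.ev g y := by
  rw [ev, ev, ev, ← (P.summable_ev f hy).tsum_add (P.summable_ev g hy)]
  exact tsum_congr fun d => by rw [map_add, map_add, add_mul]

theorem ev_sub (f g : MvPowerSeries s (E0 p n)) (hy : ∀ i, ‖y i‖ < 1) :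
    P.ev (f - g) y = P.ev f y - P.ev g y := by
  rw [ev, ev, ev, ← (P.summable_ev f hy).tsum_sub (P.summable_ev g hy)]
  exact tsum_congr fun d => by rw [map_sub, map_sub, sub_mul]

theorem ev_mul (f g : MvPowerSeries s (E0 p n)) (hy : ∀ i, ‖y i‖ < 1) :
    P.ev (f * g) y = P.ev f y * P.ev g y := by
  classical
  have hf := P.summable_ev f hy
  have hg := P.summable_ev g hy
  have : NonarchimedeanRing P.K :=
    { is_nonarchimedean := NonarchimedeanAddGroup.is_nonarchimedean }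
  have hfg := Summable.mul_of_nonarchimedean (R := P.K) hf hg
  rw [ev, ev, ev]
  rw [Summable.tsum_mul_tsum_eq_tsum_sum_antidiagonal hf hg hfg]
  refine tsum_congr fun d => ?_
  rw [MvPowerSeries.coeff_mul, map_sum, sum_mul]
  refine sum_congr rfl fun uv huv => ?_
  rw [map_mul, mul_mul_mul_comm, ← prod_mul_distrib]
  congr 1
  refine prod_congr rfl fun i _ => ?_
  rw [← pow_add, ← mem_antidiagonal.1 huv, Finsupp.add_apply]

theorem ev_C (a : E0 p n) : P.ev (MvPowerSeries.C a) y = P.x a := by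
  classical
  rw [ev, tsum_eq_single 0 fun d hd => ?_]
  · simp
  · simp [MvPowerSeries.coeff_C, hd]

theorem ev_X (i : s) : P.ev (MvPowerSeries.X i) y = y i := by
  classical
  rw [ev, tsum_eq_single (Finsupp.single i 1) fun d hd => ?_]
  · rw [MvPowerSeries.coeff_index_single_self_X, map_one, one_mul, prod_eq_single i]
    · simp
    · intro b _ hb; simp [Finsupp.single_eq_of_ne hb]
    · simp
  · simp [MvPowerSeries.coeff_X, hd]

theorem ev_mem_of_complete (L : Subfield P.K) (hL : IsComplete (L : Set P.K))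
    (hx : ∀ a, P.x a ∈ L) (f : MvPowerSeries s (E0 p n)) (hy : ∀ i, ‖y i‖ < 1)
    (hyL : ∀ i, y i ∈ L) : P.ev f y ∈ L := by
  obtain ⟨v, hv, hsum⟩ := P.hasSum_mem L hL hx f hy hyL
  rwa [ev, hsum.tsum_eq]

theorem norm_ev_le_of_coeff {ρ : ℝ} (f : MvPowerSeries s (E0 p n))
    (hf : ∀ d, ‖P.x (MvPowerSeries.coeff d f)‖ ≤ ρ) (hy : ∀ i, ‖y i‖ < 1) :
    ‖P.ev f y‖ ≤ ρ := by
  refine IsUltrametricDist.norm_tsum_le_of_forall_le fun d => ?_
  rw [norm_mul]
  refine (mul_le_of_le_one_right (norm_nonneg _) ?_).trans (hf d)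
  simpa using P.norm_prod_pow_le (fun i => (hy i).le) d

theorem norm_ev_le_one (f : MvPowerSeries s (E0 p n)) (hy : ∀ i, ‖y i‖ < 1) :
    ‖P.ev f y‖ ≤ 1 := P.norm_ev_le_of_coeff f (fun _ => P.norm_le _) hy

/-- A series of order at least `N` is small near the origin. -/
theorem norm_ev_le_pow {ρ : ℝ} {N : ℕ} (f : MvPowerSeries s (E0 p n))
    (hf : ∀ d : s →₀ ℕ, d.degree < N → MvPowerSeries.coeff d f = 0)
    (hρ : ∀ i, ‖y i‖ ≤ ρ) (hρ0 : 0 ≤ ρ) (hρ1 : ρ ≤ 1) : ‖P.ev f y‖ ≤ ρ ^ N := by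
  refine IsUltrametricDist.norm_tsum_le_of_forall_le fun d => ?_
  rcases lt_or_ge d.degree N with hd | hd
  · simpa [hf d hd] using pow_nonneg hρ0 N
  · exact (P.norm_term_le hρ f d).trans (pow_le_pow_of_le_one hρ0 hρ1 hd)

theorem norm_ev_le {ρ : ℝ} (f : MvPowerSeries s (E0 p n)) (hf : f.constantCoeff = 0)
    (hy : ∀ i, ‖y i‖ < 1) (hρ : ∀ i, ‖y i‖ ≤ ρ) (hρ0 : 0 ≤ ρ) : ‖P.ev f y‖ ≤ ρ := by
  rcases le_or_gt ρ 1 with h1 | h1
  · simpa using P.norm_ev_le_pow (N := 1) f (fun d hd => by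
      rw [(Finsupp.degree_eq_zero_iff d).1 (by omega), MvPowerSeries.coeff_zero_eq_constantCoeff_apply,
        hf]) hρ hρ0 h1
  · exact (P.norm_ev_le_one f hy).trans h1.le

theorem norm_prod_sub_prod_le {ι : Type} (t : Finset ι) {a b : ι → P.K} {ρ : ℝ} (hρ0 : 0 ≤ ρ)
    (ha : ∀ i ∈ t, ‖a i‖ ≤ 1) (hb : ∀ i ∈ t, ‖b i‖ ≤ 1) (h : ∀ i ∈ t, ‖a i - b i‖ ≤ ρ) :
    ‖∏ i ∈ t, a i - ∏ i ∈ t, b i‖ ≤ ρ := by
  classical
  induction t using Finset.induction with
  | empty => simpa using hρ0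
  | insert i t hi ih =>
    simp only [forall_mem_insert] at ha hb h
    rw [prod_insert hi, prod_insert hi, show a i * ∏ j ∈ t, a j - b i * ∏ j ∈ t, b j =
      (a i - b i) * ∏ j ∈ t, a j + b i * (∏ j ∈ t, a j - ∏ j ∈ t, b j) by ring]
    refine (IsUltrametricDist.norm_add_le_max _ _).trans (max_le ?_ ?_) <;> rw [norm_mul]
    · refine (mul_le_of_le_one_right (norm_nonneg _) ?_).trans h.1
      rw [norm_prod]
      exact prod_le_one (fun j _ => norm_nonneg _) ha.2
    · exact (mul_le_of_le_one_left (norm_nonneg _) hb.1).trans (ih ha.2 hb.2 h.2)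

theorem norm_pow_sub_pow_le {a b : P.K} (ha : ‖a‖ ≤ 1) (hb : ‖b‖ ≤ 1) (k : ℕ) :
    ‖a ^ k - b ^ k‖ ≤ ‖a - b‖ := by
  simpa using P.norm_prod_sub_prod_le (range k) (a := fun _ => a) (b := fun _ => b)
    (norm_nonneg (a - b)) (fun _ _ => ha) (fun _ _ => hb) fun _ _ => le_rfl

theorem norm_ev_sub_ev_le {ρ : ℝ} (f : MvPowerSeries s (E0 p n)) (hy : ∀ i, ‖y i‖ < 1)
    (hz : ∀ i, ‖z i‖ < 1) (hρ : ∀ i, ‖y i - z i‖ ≤ ρ) (hρ0 : 0 ≤ ρ) :
    ‖P.ev f y - P.ev f z‖ ≤ ρ := by
  rw [ev, ev, ← (P.summable_ev f hy).tsum_sub (P.summable_ev f hz)]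
  refine IsUltrametricDist.norm_tsum_le_of_forall_le fun d => ?_
  rw [← mul_sub, norm_mul]
  refine (mul_le_of_le_one_left (norm_nonneg _) (P.norm_le _)).trans ?_
  refine P.norm_prod_sub_prod_le univ hρ0 (fun i _ => ?_) (fun i _ => ?_) fun i _ =>
    (P.norm_pow_sub_pow_le (hy i).le (hz i).le _).trans (hρ i)
  · rw [norm_pow]; exact pow_le_one₀ (norm_nonneg _) (hy i).le
  · rw [norm_pow]; exact pow_le_one₀ (norm_nonneg _) (hz i).le

/-- Evaluation as a ring map. -/
def evHom (hy : ∀ i, ‖y i‖ < 1) : MvPowerSeries s (E0 p n) →+* P.K where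
  toFun f := P.ev f y
  map_one' := by rw [← map_one MvPowerSeries.C, ev_C, map_one]
  map_zero' := by rw [← map_zero MvPowerSeries.C, ev_C, map_zero]
  map_mul' f g := P.ev_mul f g hy
  map_add' f g := P.ev_add f g hy

@[simp] theorem evHom_apply (hy : ∀ i, ‖y i‖ < 1) (f : MvPowerSeries s (E0 p n)) :
    P.evHom hy f = P.ev f y := rfl

/-- Substitution commutes with evaluation. -/
theorem ev_subst (g : MvPowerSeries t (E0 p n)) (a : t → MvPowerSeries s (E0 p n))
    (ha : ∀ i, (a i).constantCoeff = 0) (hy : ∀ i, ‖y i‖ < 1) :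
    P.ev (g.subst a) y = P.ev g fun i => P.ev (a i) y := by
  classical
  obtain ⟨ρ, h0, h1, hρ⟩ := P.exists_radius hy
  have hS := MvPowerSeries.hasSubst_of_constantCoeff_zero ha
  have hbρ : ∀ i, ‖P.ev (a i) y‖ ≤ ρ := fun i => P.norm_ev_le _ (ha i) hy hρ h0
  have hb : ∀ i, ‖P.ev (a i) y‖ < 1 := fun i => (hbρ i).trans_lt h1
  have hpoly : ∀ q : MvPolynomial t (E0 p n),
      P.evHom hy (MvPowerSeries.subst a (q : MvPowerSeries t (E0 p n))) =
        P.evHom hb (q : MvPowerSeries t (E0 p n)) := by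
    intro q
    rw [MvPowerSeries.subst_coe]
    induction q using MvPolynomial.induction_on with
    | C c => simp [MvPowerSeries.algebraMap_apply, ev_C]
    | add u v hu hv => simp only [map_add, MvPolynomial.coe_add, hu, hv]
    | mul_X u i hu =>
      simp only [map_mul, MvPolynomial.coe_mul, hu, MvPolynomial.coe_X, MvPolynomial.aeval_X]
      simp [ev_X]
  have key : ∀ N, ‖P.ev (g.subst a) y - P.ev g fun i => P.ev (a i) y‖ ≤ ρ ^ N := by
    intro N
    set q : MvPowerSeries t (E0 p n) :=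
      ((MvPowerSeries.truncTotal N g : MvPolynomial t (E0 p n)) : MvPowerSeries t (E0 p n))
    have hr : ∀ d : t →₀ ℕ, d.degree < N → MvPowerSeries.coeff d (g - q) = 0 := fun d hd => by
      rw [map_sub, MvPolynomial.coeff_coe, MvPowerSeries.coeff_truncTotal _ hd, sub_self]
    have hr' : ∀ e : s →₀ ℕ, e.degree < N →
        MvPowerSeries.coeff e (MvPowerSeries.subst a (g - q)) = 0 := by
      intro e he
      rw [MvPowerSeries.coeff_subst hS]
      refine finsum_eq_zero_of_forall_eq_zero fun d => ?_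
      rcases lt_or_ge d.degree N with hd | hd
      · rw [hr d hd, zero_smul]
      · refine smul_eq_zero_of_right _ (MvPowerSeries.coeff_of_lt_order ?_)
        refine lt_of_lt_of_le (Nat.cast_lt.2 (he.trans_le hd))
          (.trans ?_ (MvPowerSeries.le_order_prod _ d.support))
        exact_mod_cast sum_le_sum fun i _ =>
          MvPowerSeries.le_order_pow_of_constantCoeff_eq_zero _ (ha i)
    have h : P.ev (g.subst a) y - (P.ev g fun i => P.ev (a i) y) =
        P.ev (MvPowerSeries.subst a (g - q)) y - P.ev (g - q) fun i => P.ev (a i) y := by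
      have := hpoly (MvPowerSeries.truncTotal N g)
      simp only [evHom_apply] at this
      rw [MvPowerSeries.subst_sub hS, P.ev_sub _ _ hy, P.ev_sub _ _ hb, this]
      ring
    rw [h, sub_eq_add_neg]
    refine (IsUltrametricDist.norm_add_le_max _ _).trans (max_le ?_ ?_)
    · exact P.norm_ev_le_pow _ hr' hρ h0 h1.le
    · rw [norm_neg]; exact P.norm_ev_le_pow _ hr hbρ h0 h1.le
  exact sub_eq_zero.1 (norm_le_zero_iff.1
    (ge_of_tendsto' (tendsto_pow_atTop_nhds_zero_of_lt_one h0 h1) key))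

theorem ev_map (σ : E0 p n →ₐ[W p n] E0 p n) (hσ) (f : MvPowerSeries s (E0 p n)) (y : s → P.K) :
    (P.comp σ hσ).ev f y = P.ev (MvPowerSeries.map σ.toRingHom f) y :=
  tsum_congr fun d => by rw [MvPowerSeries.coeff_map]; rfl

/-- A common bound for the moved coefficients bounds the moved value. -/
theorem norm_ev_map_sub_le {ρ : ℝ} (σ : E0 p n →+* E0 p n)
    (hρ : ∀ a, ‖P.x (σ a) - P.x a‖ ≤ ρ) (f : MvPowerSeries s (E0 p n))
    (hy : ∀ i, ‖y i‖ < 1) : ‖P.ev (MvPowerSeries.map σ f) y - P.ev f y‖ ≤ ρ := by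
  rw [← P.ev_sub _ _ hy]
  refine P.norm_ev_le_of_coeff _ (fun d => ?_) hy
  rw [map_sub, MvPowerSeries.coeff_map, map_sub]
  exact hρ _

theorem exists_norm_le_pow : ∃ r : ℝ, 0 < r ∧ r < 1 ∧ ∀ (N : ℕ),
    ∀ a ∈ IsLocalRing.maximalIdeal (E0 p n) ^ N, ‖P.x a‖ ≤ r ^ N := by
  obtain ⟨r, hr, h⟩ := P.contract
  have hr0 : (0 : ℝ) < max r (1 / 2) := lt_max_of_lt_right (by norm_num)
  refine ⟨max r (1 / 2), hr0, max_lt hr (by norm_num), fun N => ?_⟩
  induction N with
  | zero => intro a _; simpa using P.norm_le a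
  | succ N ih =>
    intro a ha
    rw [pow_succ] at ha
    refine Submodule.mul_induction_on ha (fun u hu v hv => ?_) fun u v hu hv => ?_
    · rw [map_mul, norm_mul, pow_succ]
      exact mul_le_mul (ih u hu) ((h v hv).trans (le_max_left _ _)) (norm_nonneg _) (by positivity)
    · rw [map_add]
      exact (IsUltrametricDist.norm_add_le_max _ _).trans (max_le hu hv)

section Group

variable (F : FormalGroup (E0 p n)) {a b c : P.K}

theorem norm_pair_lt (ha : ‖a‖ < 1) (hb : ‖b‖ < 1) : ∀ i, ‖![a, b] i‖ < 1 :=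
  Fin.forall_fin_two.2 ⟨ha, hb⟩

theorem norm_add_le (ha : ‖a‖ < 1) (hb : ‖b‖ < 1) : ‖P.add F a b‖ ≤ max ‖a‖ ‖b‖ :=
  P.norm_ev_le _ F.zero_constantCoeff (P.norm_pair_lt ha hb)
    (Fin.forall_fin_two.2 ⟨le_max_left _ _, le_max_right _ _⟩) (le_max_of_le_left (norm_nonneg _))

theorem norm_add_lt_one (ha : ‖a‖ < 1) (hb : ‖b‖ < 1) : ‖P.add F a b‖ < 1 :=
  (P.norm_add_le F ha hb).trans_lt (max_lt ha hb)

/-- The value of `F (f, g)` is the sum of the values. -/
theorem ev_subst_pair {f g : MvPowerSeries s (E0 p n)} (hf : f.constantCoeff = 0)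
    (hg : g.constantCoeff = 0) (hy : ∀ i, ‖y i‖ < 1) :
    P.ev (F.toPowerSeries.subst ![f, g]) y = P.add F (P.ev f y) (P.ev g y) := by
  rw [P.ev_subst _ _ (Fin.forall_fin_two.2 ⟨hf, hg⟩) hy, add]
  congr 1
  funext i
  fin_cases i <;> rfl

theorem add_assoc (ha : ‖a‖ < 1) (hb : ‖b‖ < 1) (hc : ‖c‖ < 1) :
    P.add F (P.add F a b) c = P.add F a (P.add F b c) := by
  have hy : ∀ i, ‖![a, b, c] i‖ < 1 := Fin.forall_fin_succ.2 ⟨ha, P.norm_pair_lt hb hc⟩
  have h0 : ∀ i j : Fin 3, MvPowerSeries.constantCoeff (F.toPowerSeries.subst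
      ![(MvPowerSeries.X i : MvPowerSeries (Fin 3) (E0 p n)), MvPowerSeries.X j]) = 0 :=
    fun i j => MvPowerSeries.constantCoeff_subst_eq_zero MvPowerSeries.HasSubst.X_X
      (Fin.forall_fin_two.2 ⟨MvPowerSeries.constantCoeff_X _, MvPowerSeries.constantCoeff_X _⟩)
      F.zero_constantCoeff
  have key := congrArg (fun f => P.ev f ![a, b, c]) F.assoc
  simpa [P.ev_subst_pair F (h0 _ _) (MvPowerSeries.constantCoeff_X _) hy,
    P.ev_subst_pair F (MvPowerSeries.constantCoeff_X _) (h0 _ _) hy,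
    P.ev_subst_pair F (MvPowerSeries.constantCoeff_X _) (MvPowerSeries.constantCoeff_X _) hy,
    ev_X] using key

theorem add_comm [F.IsComm] (ha : ‖a‖ < 1) (hb : ‖b‖ < 1) : P.add F a b = P.add F b a := by
  have h := congrArg (fun f => P.ev f ![a, b]) (FormalGroup.IsComm.comm (F := F))
  simpa [add, P.ev_subst_pair F (MvPowerSeries.constantCoeff_X _)
    (MvPowerSeries.constantCoeff_X _) (P.norm_pair_lt ha hb), ev_X] using h

theorem add_zero (ha : ‖a‖ < 1) : P.add F a 0 = a := by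
  have hy : ∀ i : Fin 1, ‖![a] i‖ < 1 := fun i => by fin_cases i; exact ha
  have h := congrArg (fun f => P.ev f ![a]) (F.add_zero
    (f := (MvPowerSeries.X 0 : MvPowerSeries (Fin 1) (E0 p n)))
    (PowerSeries.HasSubst.of_constantCoeff_zero (MvPowerSeries.constantCoeff_X 0)))
  simp only [P.ev_subst_pair F (MvPowerSeries.constantCoeff_X _) (map_zero _) hy, ev_X] at h
  rwa [← map_zero MvPowerSeries.C, ev_C, map_zero] at h

/-- The mixed part `F (x, y) - x - y`. -/
def mixed : MvPowerSeries (Fin 2) (E0 p n) :=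
  F.toPowerSeries - MvPowerSeries.X 0 - MvPowerSeries.X 1

omit [Fintype s] [Fintype t] in
theorem coeff_mixed {d : Fin 2 →₀ ℕ} (hd : d 0 = 0 ∨ d 1 = 0) :
    MvPowerSeries.coeff d (mixed F) = 0 := by
  classical
  rcases hd with h | h
  · have hd' : d = Finsupp.single 1 (d 1) := by ext i; fin_cases i <;> simp [h]
    have hF := congrArg (PowerSeries.coeff (d 1)) F.zeroX_eq_X
    rw [FormalGroup.zeroX, PowerSeries.coeff, PowerSeries.X, MvPowerSeries.coeff_subst MvPowerSeries.HasSubst.zero_X,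
      finsum_eq_single _ (Finsupp.single 1 (d 1))] at hF
    · rw [mixed, map_sub, map_sub, hd']
      simp [MvPowerSeries.coeff_X, Finsupp.single_eq_single_iff] at hF ⊢
      rw [show (MvPowerSeries.X () : MvPowerSeries Unit (E0 p n)) = PowerSeries.X from rfl,
        PowerSeries.coeff_X_pow_self, mul_one] at hF
      simp [hF]
    · intro e he
      by_cases h0 : e 0 = 0
      · have : e 1 ≠ d 1 := fun h1 => he (by ext i; fin_cases i <;> simp [h0, h1])
        simp [h0, PowerSeries.coeff_X_pow, this.symm,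
          show (MvPowerSeries.X () : MvPowerSeries Unit (E0 p n)) = PowerSeries.X from rfl]
      · simp [h0]
  · have hd' : d = Finsupp.single 0 (d 0) := by ext i; fin_cases i <;> simp [h]
    have hF := congrArg (PowerSeries.coeff (d 0)) F.Xzero_eq_X
    rw [FormalGroup.Xzero, PowerSeries.coeff, PowerSeries.X, MvPowerSeries.coeff_subst MvPowerSeries.HasSubst.X_zero,
      finsum_eq_single _ (Finsupp.single 0 (d 0))] at hF
    · rw [mixed, map_sub, map_sub, hd']
      simp [MvPowerSeries.coeff_X, Finsupp.single_eq_single_iff] at hF ⊢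
      rw [show (MvPowerSeries.X () : MvPowerSeries Unit (E0 p n)) = PowerSeries.X from rfl,
        PowerSeries.coeff_X_pow_self, mul_one] at hF
      simp [hF]
    · intro e he
      by_cases h0 : e 1 = 0
      · have : e 0 ≠ d 0 := fun h1 => he (by ext i; fin_cases i <;> simp [h0, h1])
        simp [h0, PowerSeries.coeff_X_pow, this.symm,
          show (MvPowerSeries.X () : MvPowerSeries Unit (E0 p n)) = PowerSeries.X from rfl]
      · simp [h0]

theorem add_eq_mixed (ha : ‖a‖ < 1) (hb : ‖b‖ < 1) :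
    P.add F a b = a + b + P.ev (mixed F) ![a, b] := by
  have hy := P.norm_pair_lt ha hb
  rw [mixed, P.ev_sub _ _ hy, P.ev_sub _ _ hy, ev_X, ev_X, add]
  simp only [Matrix.cons_val_zero, Matrix.cons_val_one, Matrix.cons_val_fin_one]
  ring

theorem norm_mixed_le (ha : ‖a‖ < 1) (hb : ‖b‖ < 1) :
    ‖P.ev (mixed F) ![a, b]‖ ≤ ‖a‖ * ‖b‖ := by
  refine IsUltrametricDist.norm_tsum_le_of_forall_le fun d => ?_
  by_cases hd : d 0 = 0 ∨ d 1 = 0
  · simp [coeff_mixed F hd, mul_nonneg]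
  · rw [not_or] at hd
    rw [norm_mul, Fin.prod_univ_two, norm_mul, norm_pow, norm_pow]
    exact (mul_le_of_le_one_left (by positivity) (P.norm_le _)).trans (mul_le_mul
      (pow_le_of_le_one (norm_nonneg _) ha.le hd.1) (pow_le_of_le_one (norm_nonneg _) hb.le hd.2)
      (by positivity) (norm_nonneg _))

theorem norm_add_sub_le (ha : ‖a‖ < 1) (hb : ‖b‖ < 1) :
    ‖P.add F a b - (a + b)‖ ≤ ‖a‖ * ‖b‖ := by
  rw [P.add_eq_mixed F ha hb, add_sub_cancel_left]
  exact P.norm_mixed_le F ha hb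

theorem norm_mixed_sub_le (ha : ‖a‖ < 1) (hb : ‖b‖ < 1) (hc : ‖c‖ < 1) :
    ‖P.ev (mixed F) ![a, b] - P.ev (mixed F) ![a, c]‖ ≤ ‖a‖ * ‖b - c‖ := by
  rw [ev, ev, ← (P.summable_ev _ (P.norm_pair_lt ha hb)).tsum_sub
    (P.summable_ev _ (P.norm_pair_lt ha hc))]
  refine IsUltrametricDist.norm_tsum_le_of_forall_le fun d => ?_
  by_cases hd : d 0 = 0 ∨ d 1 = 0
  · simp [coeff_mixed F hd, mul_nonneg]
  · rw [not_or] at hd
    simp only [Fin.prod_univ_two, Matrix.cons_val_zero, Matrix.cons_val_one,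
      Matrix.cons_val_fin_one]
    rw [← mul_sub, ← mul_sub, norm_mul, norm_mul, norm_pow]
    exact (mul_le_of_le_one_left (by positivity) (P.norm_le _)).trans (mul_le_mul
      (pow_le_of_le_one (norm_nonneg _) ha.le hd.1) (P.norm_pow_sub_pow_le hb.le hc.le _)
      (norm_nonneg _) (norm_nonneg _))

theorem exists_neg (ha : ‖a‖ < 1) :
    ∃ b, ‖b‖ = ‖a‖ ∧ P.add F a b = 0 := by
  classical
  set T : P.K → P.K := fun v => -a - P.ev (mixed F) ![a, v]
  set v : ℕ → P.K := fun k => T^[k] 0 with hv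
  have hsucc : ∀ k, v (k + 1) = T (v k) := fun k => Function.iterate_succ_apply' T k 0
  obtain ⟨L, hL, hx, haL⟩ := P.complete_gen {a}
  have hmem : ∀ k, v k ∈ L ∧ ‖v k‖ ≤ ‖a‖ := by
    intro k
    induction k with
    | zero => exact ⟨by simp [hv], by simp [hv]⟩
    | succ k ih =>
      have hk := ih.2.trans_lt ha
      rw [hsucc]
      refine ⟨sub_mem (neg_mem (haL a (mem_singleton_self a))) (P.ev_mem_of_complete L hL hx _
        (P.norm_pair_lt ha hk) (Fin.forall_fin_two.2 ⟨haL a (mem_singleton_self a), ih.1⟩)), ?_⟩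
      simp only [T, sub_eq_add_neg]
      refine (IsUltrametricDist.norm_add_le_max _ _).trans (max_le (norm_neg a).le ?_)
      rw [norm_neg]
      exact (P.norm_mixed_le F ha hk).trans (mul_le_of_le_one_right (norm_nonneg _) hk.le)
  have hlt : ∀ k, ‖v k‖ < 1 := fun k => (hmem k).2.trans_lt ha
  have hT : ∀ u w, ‖u‖ < 1 → ‖w‖ < 1 → ‖T u - T w‖ ≤ ‖a‖ * ‖u - w‖ := fun u w hu hw => by
    simp only [T, sub_sub_sub_cancel_left]
    rw [norm_sub_rev u w]
    exact P.norm_mixed_sub_le F ha hw hu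
  have hstep : ∀ k, ‖v (k + 1) - v k‖ ≤ ‖a‖ ^ k := by
    intro k
    induction k with
    | zero => simpa [hv] using (hmem 1).2.trans ha.le
    | succ k ih =>
      rw [hsucc (k + 1)]
      nth_rw 2 [hsucc k]
      rw [pow_succ']
      exact (hT _ _ (hlt _) (hlt k)).trans (mul_le_mul_of_nonneg_left ih (norm_nonneg _))
  have hcs : CauchySeq v := NonarchimedeanAddGroup.cauchySeq_of_tendsto_sub_nhds_zero
    (squeeze_zero_norm hstep (tendsto_pow_atTop_nhds_zero_of_lt_one (norm_nonneg a) ha))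
  obtain ⟨b, -, hb⟩ := cauchySeq_tendsto_of_isComplete hL (fun k => (hmem k).1) hcs
  have hbn : ‖b‖ ≤ ‖a‖ := le_of_tendsto' hb.norm fun k => (hmem k).2
  have hb1 := hbn.trans_lt ha
  have hfix : T b = b := by
    refine tendsto_nhds_unique ?_ (hb.comp (tendsto_add_atTop_nat 1))
    simp only [Function.comp_def, hsucc]
    rw [tendsto_iff_norm_sub_tendsto_zero] at hb ⊢
    exact squeeze_zero (fun _ => norm_nonneg _) (fun k => (hT _ _ (hlt k) hb1).trans
      (mul_le_of_le_one_left (norm_nonneg _) ha.le)) hb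
  have h0 : P.add F a b = 0 := by
    rw [P.add_eq_mixed F ha hb1]
    linear_combination -hfix
  refine ⟨b, le_antisymm hbn ?_, h0⟩
  have h := P.norm_add_sub_le F ha hb1
  rw [h0, zero_sub, norm_neg] at h
  have h2 : ‖a‖ ≤ max ‖a + b‖ ‖b‖ := by
    simpa using IsUltrametricDist.norm_add_le_max (a + b) (-b)
  rcases le_max_iff.1 h2 with h3 | h3
  · nlinarith [norm_nonneg a, norm_nonneg b]
  · exact h3

/-- Homomorphisms act additively on the disc. -/
theorem ev₁_isHom {G : FormalGroup (E0 p n)} {φ : PowerSeries (E0 p n)} (hφ : IsHom F G φ)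
    (ha : ‖a‖ < 1) (hb : ‖b‖ < 1) :
    P.ev₁ φ (P.add F a b) = P.add G (P.ev₁ φ a) (P.ev₁ φ b) := by
  have hy := P.norm_pair_lt ha hb
  have h0 : ∀ i : Fin 2, MvPowerSeries.constantCoeff
      (PowerSeries.subst (MvPowerSeries.X i : MvPowerSeries (Fin 2) (E0 p n)) φ) = 0 := fun i =>
    MvPowerSeries.constantCoeff_subst_eq_zero
      (MvPowerSeries.hasSubst_of_constantCoeff_zero fun _ => MvPowerSeries.constantCoeff_X i)
      (fun _ => MvPowerSeries.constantCoeff_X i) hφ.1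
  have key := congrArg (fun f => P.ev f ![a, b]) hφ.2
  rw [P.ev_subst_pair G (h0 0) (h0 1) hy] at key
  simp only [PowerSeries.subst_def, P.ev_subst φ _ (fun _ => F.zero_constantCoeff) hy,
    P.ev_subst φ _ (fun _ => MvPowerSeries.constantCoeff_X _) hy, ev_X] at key
  simpa [ev₁, add] using key

theorem constantCoeff_nsmulSeries_eq_zero (m : ℕ) :
    PowerSeries.constantCoeff (nsmulSeries F m) = 0 := by
  induction m with
  | zero => exact map_zero _
  | succ m ih =>
    have h : ∀ i, MvPowerSeries.constantCoeff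
        (![(PowerSeries.X : PowerSeries (E0 p n)), nsmulSeries F m] i) = 0 :=
      Fin.forall_fin_two.2 ⟨PowerSeries.constantCoeff_X, ih⟩
    exact MvPowerSeries.constantCoeff_subst_eq_zero
      (MvPowerSeries.hasSubst_of_constantCoeff_zero h) h F.zero_constantCoeff

theorem ev₁_nsmulSeries_succ (m : ℕ) (ha : ‖a‖ < 1) :
    P.ev₁ (nsmulSeries F (m + 1)) a = P.add F a (P.ev₁ (nsmulSeries F m) a) := by
  rw [ev₁, nsmulSeries, P.ev_subst_pair F (s := Unit) PowerSeries.constantCoeff_X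
    (constantCoeff_nsmulSeries_eq_zero F m) fun _ => ha, PowerSeries.X, ev_X]
  rfl

end Group

end Point

end Vale.Agent.P217
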